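import Vale.Agent.P040.Cert.Data

/-!
# P040: the certificate passes the check
-/

namespace Vale.Agent.P040.Cert

theorem data_check : data.check = true := by decide +kernel

/-- The constant `4 C / S` exceeds `0.92`. -/
theorem data_value : 92 * data.S < 400 * data.C := by decide +kernel

end Vale.Agent.P040.Cert
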