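import Vale.Agent.P040.Cert.Sum
import Vale.Agent.P040.Cert.Checked
import Vale.Agent.P040.Assembly

/-!
# P040: from the pair bound and the certificate to the asymptotic constant
-/

open Finset

namespace Vale.Agent.P040.Cert

open Data

variable {m n : ℕ}

lemma pairPts_comm (D : RDrawing m n) (a a' : Fin m) : D.pairPts a a' = D.pairPts a' a := by
  ext p
  constructor <;> rintro ⟨i, j, hij, hs, ht⟩ <;> exact ⟨j, i, hij.symm, ht, hs⟩

lemma sum_offDiag_pairPts (D : RDrawing m n) :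
    ∑ x ∈ offDiag (Fin m), ((D.pairPts x.1 x.2).ncard : ℝ) ≤ 2 * (D.crossings : ℝ) := by
  have h := two_mul_sum_ltPairs (fun a b => ((D.pairPts a b).ncard : ℝ))
    (fun a b => by rw [pairPts_comm])
  have hu := Finset.sum_union (f := fun x : Fin m × Fin m => ((D.pairPts x.1 x.2).ncard : ℝ))
    (Finset.disjoint_diag_offDiag (Finset.univ : Finset (Fin m)))
  rw [Finset.diag_union_offDiag, Finset.sum_product, Finset.sum_diag] at hu
  have hle : ∑ q ∈ RDrawing.ltPairs m, ((D.pairPts q.1 q.2).ncard : ℝ) ≤ (D.crossings : ℝ) := by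
    exact_mod_cast D.sum_pairPts_le
  show ∑ x ∈ (Finset.univ : Finset (Fin m)).offDiag, _ ≤ _
  linarith

/-- The summand of `windCost`. -/
noncomputable def windTerm (x y : Fin n → ℕ) (w : Fin n → ℤ) (i j : Fin n) : ℝ :=
  |((⌊((w j : ℝ) - (y j : ℝ) / n) - ((w i : ℝ) - (y i : ℝ) / n)⌋ -
    ⌊(x j : ℝ) / n - (x i : ℝ) / n⌋ : ℤ) : ℝ)|

/-- The ranks of the first `k` points. -/
noncomputable def subRank {k : ℕ} (hk : k ≤ n) (r : Fin n → Fin n) : Fin k → Fin k :=
  rankIn fun i => ((r (Fin.castLE hk i) : ℕ) : ℝ) / n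

lemma sub_injective {k : ℕ} (hk : k ≤ n) {r : Fin n → Fin n} (hr : Function.Injective r) :
    Function.Injective fun i : Fin k => ((r (Fin.castLE hk i) : ℕ) : ℝ) / n := by
  intro i j h
  have hn : (n : ℝ) ≠ 0 := by exact_mod_cast (r (Fin.castLE hk i)).pos.ne'
  simp only [div_left_inj' hn, Nat.cast_inj] at h
  exact Fin.castLE_injective hk (hr (Fin.ext h))

lemma floor_subRank {k : ℕ} (hk : k ≤ n) {r : Fin n → Fin n} (hr : Function.Injective r)
    (i j : Fin k) :
    ⌊((subRank hk r j : ℕ) : ℝ) / k - ((subRank hk r i : ℕ) : ℝ) / k⌋ =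
      ⌊((r (Fin.castLE hk j) : ℕ) : ℝ) / n - ((r (Fin.castLE hk i) : ℕ) : ℝ) / n⌋ := by
  refine floor_rank _ (sub_injective hk hr) (fun l => ⟨by positivity, ?_⟩) i j
  rw [div_lt_one (by exact_mod_cast (r (Fin.castLE hk l)).pos)]
  exact_mod_cast (r (Fin.castLE hk l)).isLt

/-- The lattice summand is the summand of `windCost`. -/
lemma crossN_eq {k : ℕ} (hk : k ≤ n) {r r' : Fin n → Fin n} (hr : Function.Injective r)
    (hr' : Function.Injective r') (w : Fin n → ℤ) (i j : Fin k) :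
    (crossN k ((subRank hk r j : ℕ) - (subRank hk r i : ℕ))
        (((k : ℤ) * w (Fin.castLE hk j) - (subRank hk r' j : ℕ)) -
          ((k : ℤ) * w (Fin.castLE hk i) - (subRank hk r' i : ℕ))) : ℝ) =
      windTerm (fun l => (r l : ℕ)) (fun l => (r' l : ℕ)) w (Fin.castLE hk i) (Fin.castLE hk j) := by
  have hk0 : (k : ℝ) ≠ 0 := by exact_mod_cast i.pos.ne'
  set e := Fin.castLE hk
  unfold crossN windTerm
  have hdiv : ∀ z : ℤ, z / (k : ℤ) = ⌊(z : ℝ) / (k : ℝ)⌋ := fun z => by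
    rw [Int.floor_div_natCast, Int.floor_intCast]
  rw [hdiv, hdiv, abs_sub_comm]
  push_cast
  have e1 : ((subRank hk r j : ℕ) - (subRank hk r i : ℕ) : ℝ) / k =
      ((subRank hk r j : ℕ) : ℝ) / k - ((subRank hk r i : ℕ) : ℝ) / k := sub_div _ _ _
  have e2 : ((((k : ℝ) * w (e j) - (subRank hk r' j : ℕ)) -
      ((k : ℝ) * w (e i) - (subRank hk r' i : ℕ))) / k) =
      (((subRank hk r' i : ℕ) : ℝ) / k - ((subRank hk r' j : ℕ) : ℝ) / k) +
        ((w (e j) - w (e i) : ℤ) : ℝ) := by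
    field_simp
    push_cast
    ring
  have e3 : ((w (e j) : ℝ) - ((r' (e j) : ℕ) : ℝ) / n) - ((w (e i) : ℝ) - ((r' (e i) : ℕ) : ℝ) / n) =
      (((r' (e i) : ℕ) : ℝ) / n - ((r' (e j) : ℕ) : ℝ) / n) + ((w (e j) - w (e i) : ℤ) : ℝ) := by
    push_cast
    ring
  rw [e1, e2, e3, Int.floor_add_intCast, Int.floor_add_intCast, floor_subRank hk hr i j,
    floor_subRank hk hr' j i]

/-- **The asymptotic bound with the constant of a certificate.** -/
theorem boundSpec_of_cert {d : Data} (hc : d.check = true) (hS0 : 0 < d.S) (hC0 : 0 ≤ d.C)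
    (hN : NormaliseSpec) (hP : PairBoundSpec) : BoundSpec (4 * (d.C : ℝ) / (d.S : ℝ)) := by
  have h := good_of_check hc
  have hS : (0 : ℝ) < d.S := by exact_mod_cast hS0
  have hC : (0 : ℝ) ≤ d.C := by exact_mod_cast hC0
  have hsl : (0 : ℝ) ≤ slack d := by exact_mod_cast slack_nonneg (d := d)
  set K : ℝ := (d.C : ℝ) * (2 * d.L + 2) + slack d with hK
  have hK0 : 0 ≤ K := by positivity
  intro η hη
  obtain ⟨N, hN8⟩ := exists_nat_ge (8 * K / ((d.S : ℝ) * η))
  refine ⟨N + d.L + 2, fun m n hm hn D => ?_⟩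
  obtain ⟨D', θ, hcr, hNA, hR⟩ := hN D
  obtain ⟨rk, hbij, hbound⟩ := hP D' θ hNA hR
  have hw' : ∀ a a', ∃ w : Fin n → ℤ, a ≠ a' →
      windCost (fun i => (rk a i : ℕ)) (fun i => (rk a' i : ℕ)) w ≤
        ((D'.pairPts a a').ncard : ℝ) := by
    intro a a'
    by_cases hne : a = a'
    · exact ⟨fun _ => 0, fun h' => absurd hne h'⟩
    · obtain ⟨w, hw⟩ := hbound a a' hne
      exact ⟨w, fun _ => hw⟩
  choose w hw using hw'
  set q := n / d.L with hq
  set k := d.L * q with hk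
  have hdm : k + n % d.L = n := Nat.div_add_mod n d.L
  have hmod := Nat.mod_lt n h.L_pos
  have hkn : k ≤ n := by omega
  have hq0 : 0 < q := Nat.div_pos (by omega) h.L_pos
  set e := Fin.castLE hkn with he
  have hsb : ∀ a, Function.Bijective (subRank hkn (rk a)) := fun a =>
    rankIn_bijective _ (sub_injective hkn (hbij a).1)
  have hsum := cert_sum h hq0 hk (fun a => Equiv.ofBijective _ (hsb a))
    (fun a a' l => (k : ℤ) * w a a' (e l) - (subRank hkn (rk a') l : ℕ))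
    (fun a a' l => ⟨w a a' (e l), by simp [Equiv.ofBijective]⟩)
  -- the right side is at most four times the number of crossings
  have hrow : ∀ x ∈ offDiag (Fin m),
      ((∑ y ∈ offDiag (Fin k), crossN k
          ((subRank hkn (rk x.1) y.1 : ℕ) - (subRank hkn (rk x.1) y.2 : ℕ))
          (((k : ℤ) * w x.1 x.2 (e y.1) - (subRank hkn (rk x.2) y.1 : ℕ)) -
            ((k : ℤ) * w x.1 x.2 (e y.2) - (subRank hkn (rk x.2) y.2 : ℕ))) : ℤ) : ℝ) ≤
        2 * ((D'.pairPts x.1 x.2).ncard : ℝ) := by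
    intro x hx
    have hc1 := hw x.1 x.2 (Finset.mem_offDiag.mp hx).2.2
    set T := windTerm (fun i => (rk x.1 i : ℕ)) (fun i => (rk x.2 i : ℕ)) (w x.1 x.2) with hT
    have hwc : windCost (fun i => (rk x.1 i : ℕ)) (fun i => (rk x.2 i : ℕ)) (w x.1 x.2) =
        (∑ i, ∑ j, T i j) / 2 := rfl
    rw [hwc] at hc1
    rw [Int.cast_sum]
    calc (∑ y ∈ offDiag (Fin k), _ : ℝ) = ∑ y ∈ offDiag (Fin k), T (e y.2) (e y.1) :=
          Finset.sum_congr rfl fun y _ =>
            crossN_eq hkn (hbij x.1).1 (hbij x.2).1 (w x.1 x.2) y.2 y.1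
      _ ≤ ∑ y : Fin k × Fin k, T (e y.2) (e y.1) :=
          Finset.sum_le_sum_of_subset_of_nonneg (Finset.subset_univ _)
            fun y _ _ => abs_nonneg _
      _ = ∑ z ∈ (Finset.univ : Finset (Fin k × Fin k)).map
            ⟨fun y => (e y.2, e y.1), fun y y' hy => by
              simp only [Prod.mk.injEq] at hy
              exact Prod.ext (Fin.castLE_injective _ hy.2) (Fin.castLE_injective _ hy.1)⟩,
            T z.1 z.2 := by rw [Finset.sum_map]; rfl
      _ ≤ ∑ z : Fin n × Fin n, T z.1 z.2 :=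
          Finset.sum_le_sum_of_subset_of_nonneg (Finset.subset_univ _)
            fun y _ _ => abs_nonneg _
      _ = ∑ i, ∑ j, T i j := Fintype.sum_prod_type _
      _ ≤ _ := by linarith
  have hright : ((∑ x ∈ offDiag (Fin m), ∑ y ∈ offDiag (Fin k), crossN k
          ((subRank hkn (rk x.1) y.1 : ℕ) - (subRank hkn (rk x.1) y.2 : ℕ))
          (((k : ℤ) * w x.1 x.2 (e y.1) - (subRank hkn (rk x.2) y.1 : ℕ)) -
            ((k : ℤ) * w x.1 x.2 (e y.2) - (subRank hkn (rk x.2) y.2 : ℕ))) : ℤ) : ℝ) ≤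
      4 * (D.crossings : ℝ) := by
    rw [Int.cast_sum]
    refine (Finset.sum_le_sum hrow).trans ?_
    rw [← Finset.mul_sum]
    have := sum_offDiag_pairPts D'
    have : (D'.crossings : ℝ) ≤ D.crossings := by exact_mod_cast hcr
    linarith
  have hsumR := (Int.cast_le (R := ℝ)).mpr hsum
  simp only [Equiv.ofBijective_apply] at hsumR
  rw [Int.cast_mul d.S] at hsumR
  have hb := hsumR.trans (mul_le_mul_of_nonneg_left hright hS.le)
  push_cast at hb
  -- the asymptotics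
  have hm0 : (0 : ℝ) ≤ m := Nat.cast_nonneg m
  have hn0 : (0 : ℝ) ≤ n := Nat.cast_nonneg n
  have hm1 : (N : ℝ) + 1 ≤ m := by exact_mod_cast (show N + 1 ≤ m by omega)
  have hn1 : (N : ℝ) + 1 ≤ n := by exact_mod_cast (show N + 1 ≤ n by omega)
  have hk1 : (n : ℝ) - d.L ≤ k := by
    have h1 : n ≤ k + d.L := by omega
    have h2 : (n : ℝ) ≤ k + d.L := by exact_mod_cast h1
    linarith
  have hk2 : (k : ℝ) ≤ n := by exact_mod_cast hkn
  have hk3 : (d.L : ℝ) + 1 ≤ n := by exact_mod_cast (show d.L + 1 ≤ n by omega)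
  have em : (n : ℝ) * n - (2 * d.L + 1) * n ≤ (k : ℝ) * (k - 1) := by
    have h3 := mul_le_mul hk1 (by linarith : (n : ℝ) - d.L - 1 ≤ (k : ℝ) - 1) (by linarith)
      (Nat.cast_nonneg k)
    nlinarith [mul_nonneg (Nat.cast_nonneg (α := ℝ) d.L) (Nat.cast_nonneg (α := ℝ) d.L)]
  have hmm : 0 ≤ (m : ℝ) * (m - 1) := mul_nonneg hm0 (by linarith [Nat.cast_nonneg (α := ℝ) N])
  have e1 := mul_le_mul_of_nonneg_left em (mul_nonneg hC hmm)
  have e2 : (slack d : ℝ) * ((m : ℝ) * m * k + (m : ℝ) * k * k) ≤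
      (slack d : ℝ) * ((m : ℝ) * m * n + (m : ℝ) * n * n) := by
    apply mul_le_mul_of_nonneg_left _ hsl
    gcongr
  have e3 : 0 ≤ (d.C : ℝ) * (2 * d.L + 1) * ((m : ℝ) * n) := by positivity
  have e4 : 0 ≤ (d.C : ℝ) * ((m : ℝ) * n * n) * (2 * d.L + 1) := by positivity
  have e5 : 0 ≤ (d.C : ℝ) * ((m : ℝ) * m * n) := by positivity
  have main : (d.C : ℝ) * ((m : ℝ) * m * (n * n)) - K * ((m : ℝ) * m * n + (m : ℝ) * n * n) ≤
      4 * d.S * (D.crossings : ℝ) := by
    rw [hK]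
    linarith
  rw [div_le_iff₀ (mul_pos hS hη)] at hN8
  have e6 := mul_le_mul_of_nonneg_right (hN8.trans (mul_le_mul_of_nonneg_right
    (by linarith : (N : ℝ) ≤ n) (mul_pos hS hη).le)) (by positivity : (0 : ℝ) ≤ (m : ℝ) * m * n)
  have e7 := mul_le_mul_of_nonneg_right (hN8.trans (mul_le_mul_of_nonneg_right
    (by linarith : (N : ℝ) ≤ m) (mul_pos hS hη).le)) (by positivity : (0 : ℝ) ≤ (m : ℝ) * n * n)
  have hgoal : (4 * (d.C : ℝ) - η * d.S) * ((m : ℝ) ^ 2 * (n : ℝ) ^ 2 / 16) ≤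
      (d.S : ℝ) * D.crossings := by
    linarith
  rw [show 4 * (d.C : ℝ) / d.S - η = (4 * (d.C : ℝ) - η * d.S) / d.S by field_simp,
    div_mul_eq_mul_div, div_le_iff₀ hS]
  linarith

/-- **The bound of P040 from the two topological specifications.** -/
theorem bound_of_cert (hN : NormaliseSpec) (hP : PairBoundSpec) :
    ∃ c : ℝ, 23 / 25 < c ∧ BoundSpec c := by
  have hv : (92 : ℝ) * data.S < 400 * data.C := by exact_mod_cast data_value
  have hS0 : 0 < data.S := by decide +kernel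
  have hS : (0 : ℝ) < data.S := by exact_mod_cast hS0
  refine ⟨_, ?_, boundSpec_of_cert data_check hS0 (by decide +kernel) hN hP⟩
  rw [lt_div_iff₀ hS]
  linarith

end Vale.Agent.P040.Cert
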