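import Mathlib

/-!
# P040: the lattice certificate (definitions and checker)

All quantities are integers.  A certificate lives on the lattice with `L` steps per turn; pairs of
points on it are compared at scale `q` (one lattice step = `q` units, one turn = `m = L * q` units).

* `phi` is the autocorrelation of `f` on `(ℤ × ℤ) / (L, L) ℤ`, in the coordinates
  `(a, r) = (i mod L, j - i)`;
* `psi` gives the positive semidefinite kernel `∑ ψ(u) ψ(v)`;
* `G` is the mean zero function of one variable.
-/

namespace Vale.Agent.P040.Cert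

/-- The raw data of a certificate. -/
structure Data where
  L : ℕ
  R : ℕ
  f : List (List ℤ)
  A : List (List ℤ)
  psi : List (List ℤ)
  G : List ℤ
  C : ℤ
  S : ℤ

/-- Number of integers strictly between `P / m` and `Q / m` (neither being an integer). -/
def crossN (m P Q : ℤ) : ℤ := |P / m - Q / m|

namespace Data

variable (d : Data)

/-- The autocorrelation table at class `a`, column `j - i = r`. -/
def phi (a : ℕ) (r : ℤ) : ℤ :=
  if -(d.R : ℤ) ≤ r ∧ r ≤ d.R then (d.A.getD a []).getD (r + d.R).toNat 0 else 0

/-- The table on lattice points. -/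
def phiZ (i j : ℤ) : ℤ := d.phi (i % d.L).toNat (j - i)

/-- The residue of `i` modulo `L`, as a node index. -/
def res (i : ℤ) : ℕ := (i % d.L).toNat

/-- `∑ ψ(u) ψ(v)`. -/
def ker (u v : ℕ) : ℤ := (d.psi.map fun p => p.getD u 0 * p.getD v 0).sum

/-- The value at node `u`. -/
def g (u : ℕ) : ℤ := d.G.getD u 0

/-- The inequality at the corner `(di, dj)` of the cell `(i, j)`. -/
def cornerOK (i j : ℤ) (di dj : ℕ) : Bool :=
  decide (d.C + d.g (d.res i + di) + d.g (d.res (-j - 1) + (1 - dj))
      + d.ker (d.res i + di) (d.res (-j - 1) + (1 - dj)) + d.phiZ (i + di) (j + dj)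
    ≤ d.S * |i / (d.L : ℤ) - j / (d.L : ℤ)|)

/-- The four corners of a cell. -/
def cellOK (i j : ℤ) : Bool :=
  d.cornerOK i j 0 0 && d.cornerOK i j 0 1 && d.cornerOK i j 1 0 && d.cornerOK i j 1 1

/-- All cells near the diagonal. -/
def nearOK : Bool :=
  (List.range d.L).all fun a =>
    (List.range (2 * d.R + 5)).all fun x => d.cellOK a (a + ((x : ℤ) - (d.R + 2)))

/-- Cells far from the diagonal. -/
def farOK : Bool :=
  decide (d.L ≤ d.R + 3) &&
  (List.range (d.L + 1)).all fun u => (List.range (d.L + 1)).all fun v =>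
    decide (d.C + d.g u + d.g v + d.ker u v
      ≤ d.S * ((((d.R : ℤ) + 3 - d.L) / d.L)))

/-- Inner product of two lists, truncated to the shorter one. -/
def dot : List ℤ → List ℤ → ℤ
  | x :: xs, y :: ys => x * y + dot xs ys
  | _, _ => 0

/-- The autocorrelation at `(a, r)`, `0 ≤ r`. -/
def autoPos (a r : ℕ) : ℤ :=
  ((List.range d.L).map fun b => dot (d.f.getD b []) ((d.f.getD ((b + a) % d.L) []).drop r)).sum

/-- The autocorrelation at `(a, r)`. -/
def auto (a : ℕ) (r : ℤ) : ℤ :=
  if 0 ≤ r then d.autoPos a r.toNat else d.autoPos ((d.L - a) % d.L) (-r).toNat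

/-- `A` is the autocorrelation of `f`. -/
def autoOK : Bool :=
  (List.range d.L).all fun a =>
    decide ((d.A.getD a []).length = 2 * d.R + 1) &&
    (List.range (2 * d.R + 1)).all fun x =>
      decide ((d.A.getD a []).getD x 0 = d.auto a ((x : ℤ) - d.R))

/-- Shapes, symmetry of `G`, mean zero, sign of the scale. -/
def shapeOK : Bool :=
  decide (0 < d.L) && decide (0 ≤ d.S) &&
  decide (d.f.length = d.L) && (d.f.all fun row => decide (row.length = d.R + 1)) &&
  decide (d.g 0 = d.g d.L) &&
  decide (((List.range d.L).map fun i => d.g i + d.g (i + 1)).sum = 0)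

/-- The kernel-checked condition. -/
def check : Bool := d.shapeOK && d.autoOK && d.nearOK && d.farOK

end Data

end Vale.Agent.P040.Cert
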