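import Vale.Agent.P040.Cert.Defs

/-!
# P040: from the corner checks to the pointwise inequality
-/

namespace Vale.Agent.P040.Cert

namespace Data

variable (d : Data)

/-- Linear interpolation of node values at scale `q`, periodic with period `L * q`. -/
def interp (q : ℕ) (F : ℕ → ℤ) (P : ℤ) : ℤ :=
  ((q : ℤ) - P % q) * F (d.res (P / q)) + P % q * F (d.res (P / q) + 1)

/-- `G` at scale `q`. -/
def gq (q : ℕ) (P : ℤ) : ℤ := d.interp q d.g P

/-- The kernel at scale `q`: a sum of products. -/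
def kq (q : ℕ) (P Q : ℤ) : ℤ :=
  (d.psi.map fun p => d.interp q (p.getD · 0) P * d.interp q (p.getD · 0) Q).sum

/-- Bilinear interpolation of the autocorrelation at scale `q`. -/
def phiq (q : ℕ) (P Q : ℤ) : ℤ :=
  ((q : ℤ) - P % q) * ((q : ℤ) - Q % q) * d.phiZ (P / q) (Q / q)
    + ((q : ℤ) - P % q) * (Q % q) * d.phiZ (P / q) (Q / q + 1)
    + P % q * ((q : ℤ) - Q % q) * d.phiZ (P / q + 1) (Q / q)
    + P % q * (Q % q) * d.phiZ (P / q + 1) (Q / q + 1)

variable {d}

lemma res_add_mul (i k : ℤ) : d.res (i + k * d.L) = d.res i := by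
  simp [res]

lemma res_lt (hL : 0 < d.L) (i : ℤ) : d.res i < d.L := by
  have h0 : (0 : ℤ) < d.L := by exact_mod_cast hL
  have h1 := Int.emod_lt_of_pos i h0
  have h2 := Int.emod_nonneg i h0.ne'
  unfold res
  omega

lemma shift_div (i k : ℤ) (hL : 0 < d.L) : (i + k * d.L) / (d.L : ℤ) = i / (d.L : ℤ) + k :=
  Int.add_mul_ediv_right _ _ (by exact_mod_cast hL.ne')

lemma corner_shift (hL : 0 < d.L) (i j k : ℤ) (di dj : ℕ) :
    d.cornerOK (i + k * d.L) (j + k * d.L) di dj = d.cornerOK i j di dj := by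
  have e1 : d.res (i + k * d.L) = d.res i := res_add_mul i k
  have e2 : d.res (-(j + k * d.L) - 1) = d.res (-j - 1) := by
    rw [show -(j + k * (d.L : ℤ)) - 1 = -j - 1 + (-k) * d.L by ring, res_add_mul]
  have e3 : d.phiZ (i + k * d.L + di) (j + k * d.L + dj) = d.phiZ (i + di) (j + dj) := by
    unfold phiZ
    rw [show i + k * (d.L : ℤ) + di = i + di + k * d.L by ring,
      show j + k * (d.L : ℤ) + dj - (i + di + k * d.L) = j + dj - (i + di) by ring]
    simp
  simp only [cornerOK, e1, e2, e3, shift_div _ _ hL]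
  simp

/-- Every corner of every cell. -/
lemma corner (hL : 0 < d.L) (hS : 0 ≤ d.S) (hn : d.nearOK = true) (hf : d.farOK = true)
    (i j : ℤ) {di dj : ℕ} (hdi : di ≤ 1) (hdj : dj ≤ 1) : d.cornerOK i j di dj = true := by
  have h0 : (0 : ℤ) < d.L := by exact_mod_cast hL
  by_cases hr : -((d.R : ℤ) + 2) ≤ j - i ∧ j - i ≤ d.R + 2
  · have hi : i = (i % d.L) + (i / (d.L : ℤ)) * d.L := by
      rw [mul_comm]; exact (Int.emod_add_mul_ediv i d.L).symm
    set a := (i % (d.L : ℤ)).toNat with ha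
    have haL : a < d.L := res_lt hL i
    have hai : ((a : ℕ) : ℤ) = i % d.L := Int.toNat_of_nonneg (Int.emod_nonneg i h0.ne')
    set k := i / (d.L : ℤ)
    have hx : ∃ x : ℕ, x < 2 * d.R + 5 ∧ (x : ℤ) - (d.R + 2) = j - i := by
      refine ⟨(j - i + (d.R + 2)).toNat, ?_, ?_⟩ <;> omega
    obtain ⟨x, hx1, hx2⟩ := hx
    simp only [nearOK, List.all_eq_true, List.mem_range] at hn
    have hc := hn a haL x hx1
    have e : d.cornerOK i j di dj = d.cornerOK a (a + ((x : ℤ) - (d.R + 2))) di dj := by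
      have := corner_shift hL (a : ℤ) (a + ((x : ℤ) - (d.R + 2))) k di dj
      rw [← this]
      congr 1 <;> omega
    rw [e]
    simp only [cellOK, Bool.and_eq_true] at hc
    interval_cases di <;> interval_cases dj
    · exact hc.1.1.1
    · exact hc.1.1.2
    · exact hc.1.2
    · exact hc.2
  · simp only [farOK, Bool.and_eq_true, decide_eq_true_eq, List.all_eq_true, List.mem_range] at hf
    obtain ⟨hLR, hf⟩ := hf
    have hu : d.res i + di < d.L + 1 := by have := res_lt hL i; omega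
    have hv : d.res (-j - 1) + (1 - dj) < d.L + 1 := by have := res_lt hL (-j - 1); omega
    have hb := hf _ hu _ hv
    have hphi : d.phiZ (i + di) (j + dj) = 0 := by
      have : ¬(-(d.R : ℤ) ≤ j + dj - (i + di) ∧ j + dj - (i + di) ≤ d.R) := by omega
      simp only [phiZ, phi]
      exact if_neg this
    have hN : ((d.R : ℤ) + 3 - d.L) / d.L ≤ |i / (d.L : ℤ) - j / (d.L : ℤ)| := by
      have a1 := Int.emod_add_mul_ediv i (d.L : ℤ)
      have a2 := Int.emod_add_mul_ediv j (d.L : ℤ)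
      have a3 := Int.emod_lt_of_pos i h0
      have a4 := Int.emod_lt_of_pos j h0
      have a5 := Int.emod_nonneg i h0.ne'
      have a6 := Int.emod_nonneg j h0.ne'
      have hlow : ((d.R : ℤ) + 3 - d.L) / d.L * d.L ≤ (d.R : ℤ) + 3 - d.L :=
        Int.ediv_mul_le _ h0.ne'
      by_contra hc
      push Not at hc
      have hc' := abs_lt.mp hc
      rcases not_and_or.mp hr with h | h <;> nlinarith
    have := mul_le_mul_of_nonneg_left hN hS
    simp only [cornerOK, decide_eq_true_eq, hphi]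
    linarith

lemma interp_at_zero (q : ℕ) (F : ℕ → ℤ) {P : ℤ} (h : P % q = 0) :
    d.interp q F P = (q : ℤ) * F (d.res (P / q)) := by
  simp [interp, h]

/-- The two descriptions of `-Q` in its cell. -/
lemma interp_neg (hL : 0 < d.L) {q : ℕ} (hq : 0 < q) (F : ℕ → ℤ) {Q : ℤ}
    (hQ : ¬ ((d.L * q : ℕ) : ℤ) ∣ Q) :
    d.interp q F (-Q) = Q % q * F (d.res (-(Q / q) - 1))
      + ((q : ℤ) - Q % q) * F (d.res (-(Q / q) - 1) + 1) := by
  have hq0 : (0 : ℤ) < q := by exact_mod_cast hq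
  have h0 : (0 : ℤ) < d.L := by exact_mod_cast hL
  have e := Int.emod_add_mul_ediv Q q
  by_cases hr : Q % q = 0
  · have hne : ¬ (d.L : ℤ) ∣ Q / q := by
      intro hd
      apply hQ
      push_cast
      calc (d.L : ℤ) * q ∣ Q / q * q := mul_dvd_mul_right hd _
        _ = Q := by rw [mul_comm]; omega
    have h1 : -Q % (q : ℤ) = 0 := by
      rw [show -Q = (q : ℤ) * (-(Q / q)) by rw [mul_neg]; omega]
      simp
    have h2 : -Q / (q : ℤ) = -(Q / q) := by
      rw [show -Q = (q : ℤ) * (-(Q / q)) by rw [mul_neg]; omega]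
      rw [Int.mul_ediv_cancel_left _ hq0.ne']
    rw [interp_at_zero q F h1, h2, hr]
    have hres : d.res (-(Q / q) - 1) + 1 = d.res (-(Q / q)) := by
      set t := -(Q / (q : ℤ)) with ht
      have hnd : ¬ (d.L : ℤ) ∣ t := fun h => hne (by rwa [ht, dvd_neg] at h)
      have hpos : 0 < t % (d.L : ℤ) := lt_of_le_of_ne (Int.emod_nonneg _ h0.ne')
        (fun h => hnd (Int.dvd_of_emod_eq_zero h.symm))
      have hlt := Int.emod_lt_of_pos t h0
      have : (t - 1) % (d.L : ℤ) = t % d.L - 1 := by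
        rw [Int.sub_emod]
        by_cases hL1 : (d.L : ℤ) = 1
        · omega
        rw [Int.emod_eq_of_lt (by norm_num : (0 : ℤ) ≤ 1) (by omega)]
        exact Int.emod_eq_of_lt (by omega) (by omega)
      unfold res
      rw [this]
      omega
    rw [hres]
    ring
  · have hr0 := Int.emod_nonneg Q hq0.ne'
    have hr1 := Int.emod_lt_of_pos Q hq0
    have hdm : -Q / (q : ℤ) = -(Q / q) - 1 ∧ -Q % (q : ℤ) = q - Q % q := by
      have key : -Q = ((q : ℤ) - Q % q) + (-(Q / q) - 1) * q := by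
        linear_combination e
      constructor
      · rw [key, Int.add_mul_ediv_right _ _ hq0.ne', Int.ediv_eq_zero_of_lt (by omega) (by omega)]
        ring
      · rw [key, Int.add_mul_emod_self_right, Int.emod_eq_of_lt (by omega) (by omega)]
    unfold interp
    rw [hdm.1, hdm.2]
    ring

lemma kq_expand (hL : 0 < d.L) {q : ℕ} (hq : 0 < q) (P : ℤ) {Q : ℤ}
    (hQ : ¬ ((d.L * q : ℕ) : ℤ) ∣ Q) :
    d.kq q P (-Q) =
      ((q : ℤ) - P % q) * (Q % q) * d.ker (d.res (P / q)) (d.res (-(Q / q) - 1))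
      + ((q : ℤ) - P % q) * ((q : ℤ) - Q % q)
          * d.ker (d.res (P / q)) (d.res (-(Q / q) - 1) + 1)
      + P % q * (Q % q) * d.ker (d.res (P / q) + 1) (d.res (-(Q / q) - 1))
      + P % q * ((q : ℤ) - Q % q) * d.ker (d.res (P / q) + 1) (d.res (-(Q / q) - 1) + 1) := by
  unfold kq ker
  simp only [interp_neg hL hq _ hQ]
  induction d.psi with
  | nil => simp
  | cons p l ih =>
    simp only [List.map_cons, List.sum_cons, ih]
    unfold interp
    ring

/-- The pointwise inequality at scale `q`. -/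
theorem pointwise (hL : 0 < d.L) (hS : 0 ≤ d.S) (hn : d.nearOK = true) (hf : d.farOK = true)
    {q : ℕ} (hq : 0 < q) (P Q : ℤ) (hQ : ¬ ((d.L * q : ℕ) : ℤ) ∣ Q) :
    (q : ℤ) * q * d.C + (q : ℤ) * d.gq q P + (q : ℤ) * d.gq q (-Q) + d.kq q P (-Q) + d.phiq q P Q
      ≤ (q : ℤ) * q * d.S * crossN ((d.L * q : ℕ) : ℤ) P Q := by
  have hq0 : (0 : ℤ) < q := by exact_mod_cast hq
  set i := P / (q : ℤ) with hi
  set j := Q / (q : ℤ) with hj
  have hN : crossN ((d.L * q : ℕ) : ℤ) P Q = |i / (d.L : ℤ) - j / (d.L : ℤ)| := by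
    unfold crossN
    push_cast
    rw [mul_comm (d.L : ℤ) (q : ℤ), ← Int.ediv_ediv_of_nonneg hq0.le,
      ← Int.ediv_ediv_of_nonneg hq0.le]
  set r := P % (q : ℤ)
  set s := Q % (q : ℤ)
  have r0 : 0 ≤ r := Int.emod_nonneg P hq0.ne'
  have r1 : r < q := Int.emod_lt_of_pos P hq0
  have s0 : 0 ≤ s := Int.emod_nonneg Q hq0.ne'
  have s1 : s < q := Int.emod_lt_of_pos Q hq0
  have c00 := corner hL hS hn hf i j (di := 0) (dj := 0) (by norm_num) (by norm_num)
  have c01 := corner hL hS hn hf i j (di := 0) (dj := 1) (by norm_num) (by norm_num)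
  have c10 := corner hL hS hn hf i j (di := 1) (dj := 0) (by norm_num) (by norm_num)
  have c11 := corner hL hS hn hf i j (di := 1) (dj := 1) (by norm_num) (by norm_num)
  simp only [cornerOK, decide_eq_true_eq, Nat.cast_zero, Nat.cast_one, add_zero, Nat.sub_zero,
    Nat.sub_self] at c00 c01 c10 c11
  have m00 := mul_le_mul_of_nonneg_left c00 (mul_nonneg (by omega : 0 ≤ (q : ℤ) - r)
    (by omega : 0 ≤ (q : ℤ) - s))
  have m01 := mul_le_mul_of_nonneg_left c01 (mul_nonneg (by omega : 0 ≤ (q : ℤ) - r) s0)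
  have m10 := mul_le_mul_of_nonneg_left c10 (mul_nonneg r0 (by omega : 0 ≤ (q : ℤ) - s))
  have m11 := mul_le_mul_of_nonneg_left c11 (mul_nonneg r0 s0)
  have hg : d.gq q (-Q) = s * d.g (d.res (-j - 1)) + ((q : ℤ) - s) * d.g (d.res (-j - 1) + 1) :=
    interp_neg hL hq _ hQ
  rw [hN, hg, kq_expand hL hq P hQ]
  simp only [gq, interp, phiq, ← hi, ← hj]
  linarith

end Data

end Vale.Agent.P040.Cert
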