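import Vale.Agent.P040.Cert.Pointwise

/-!
# P040: summing the pointwise inequality over all pairs
-/

open Finset

namespace Vale.Agent.P040.Cert

namespace Data

variable (d : Data)

/-- `f` as a function on `(ZMod L) × ℤ`. -/
noncomputable def fz (b : ZMod d.L) (n : ℤ) : ℤ :=
  if 0 ≤ n ∧ n ≤ d.R then (d.f.getD b.val []).getD n.toNat 0 else 0

/-- The autocorrelation of `fz`. -/
noncomputable def corr [NeZero d.L] (a : ZMod d.L) (r : ℤ) : ℤ :=
  ∑ b : ZMod d.L, ∑ n ∈ Icc (0 : ℤ) d.R, d.fz b n * d.fz (b + a) (n + r)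

variable {d}

lemma corr_shift [NeZero d.L] (a c : ZMod d.L) (r t M : ℤ) (h1 : t ≤ M) (h2 : d.R - t ≤ M) :
    d.corr a r = ∑ b : ZMod d.L, ∑ n ∈ Icc (-M) M, d.fz (b + c) (n + t) * d.fz (b + c + a) (n + t + r) := by
  rw [corr, ← Fintype.sum_equiv (Equiv.addRight c) (fun b => ∑ n ∈ Icc (0 : ℤ) d.R,
    d.fz (b + c) n * d.fz (b + c + a) (n + r)) _ (fun b => rfl)]
  refine Finset.sum_congr rfl fun b _ => ?_
  set F := fun n : ℤ => d.fz (b + c) n * d.fz (b + c + a) (n + r) with hF
  calc ∑ n ∈ Icc (0 : ℤ) d.R, F n = ∑ n ∈ Icc (-M + t) (M + t), F n := by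
        apply Finset.sum_subset
        · intro n hn
          simp only [Finset.mem_Icc] at hn ⊢
          omega
        · intro n _ hn
          simp only [Finset.mem_Icc] at hn
          simp [hF, fz, hn]
    _ = _ := by
        rw [← Finset.map_add_right_Icc, Finset.sum_map]
        simp [hF]

lemma corr_symm [NeZero d.L] (a : ZMod d.L) (r : ℤ) : d.corr (-a) (-r) = d.corr a r := by
  set M := |r| + d.R with hM
  have hr := le_abs_self r
  have hr' := neg_abs_le r
  rw [corr_shift (-a) a (-r) r M (by omega) (by omega),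
    corr_shift a 0 r 0 M (by omega) (by omega)]
  refine Finset.sum_congr rfl fun b _ => Finset.sum_congr rfl fun n _ => ?_
  simp [mul_comm]

lemma dot_drop : ∀ (x y : List ℤ) (r : ℕ),
    dot x (y.drop r) = ∑ n ∈ range x.length, x.getD n 0 * y.getD (r + n) 0
  | [], y, r => by simp [dot]
  | a :: x, y, r => by
    rw [List.length_cons, Finset.sum_range_succ']
    by_cases hr : r < y.length
    · rw [List.drop_eq_getElem_cons hr, dot, dot_drop x y (r + 1)]
      have : y.getD r 0 = y[r] := List.getD_eq_getElem _ _ hr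
      rw [add_comm (a * y[r])]
      congr 1
      · refine Finset.sum_congr rfl fun n _ => ?_
        rw [List.getD_cons_succ, show r + (n + 1) = r + 1 + n by omega]
      · rw [List.getD_cons_zero, Nat.add_zero, this]
    · push Not at hr
      rw [List.drop_eq_nil_of_le hr]
      have h0 : ∀ n, y.getD (r + n) 0 = 0 := fun n =>
        List.getD_eq_default _ _ (by omega)
      simp only [h0]
      simp [dot]

lemma autoPos_eq [NeZero d.L] (hlen : d.f.length = d.L)
    (hrow : ∀ row ∈ d.f, row.length = d.R + 1) (a r : ℕ) :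
    d.autoPos a r = d.corr (a : ZMod d.L) r := by
  have hsum : d.autoPos a r = ∑ b ∈ range d.L,
      dot (d.f.getD b []) ((d.f.getD ((b + a) % d.L) []).drop r) := rfl
  rw [hsum, corr]
  refine Finset.sum_bij' (fun b _ => (b : ZMod d.L)) (fun b _ => b.val)
    (fun _ _ => Finset.mem_univ _) (fun b _ => Finset.mem_range.mpr (ZMod.val_lt b))
    (fun b hb => ZMod.val_cast_of_lt (Finset.mem_range.mp hb))
    (fun b _ => ZMod.natCast_zmod_val b) (fun b hb => ?_)
  have hb := Finset.mem_range.mp hb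
  rw [dot_drop]
  have hl : ∀ c < d.L, (d.f.getD c []).length = d.R + 1 := fun c hc => by
    rw [List.getD_eq_getElem _ _ (hlen ▸ hc)]
    exact hrow _ (List.getElem_mem _)
  rw [hl b hb]
  refine Finset.sum_bij' (fun n _ => (n : ℤ)) (fun n _ => n.toNat)
    (fun n hn => by simp only [Finset.mem_range, Finset.mem_Icc] at hn ⊢; omega)
    (fun n hn => by simp only [Finset.mem_range, Finset.mem_Icc] at hn ⊢; omega)
    (fun n _ => by simp) (fun n hn => by simp only [Finset.mem_Icc] at hn; omega) (fun n hn => ?_)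
  have hn := Finset.mem_range.mp hn
  have hv : ((b : ZMod d.L) + (a : ZMod d.L)).val = (b + a) % d.L := by
    rw [← Nat.cast_add, ZMod.val_natCast]
  have h1 : d.fz (b : ZMod d.L) (n : ℤ) = (d.f.getD b []).getD n 0 := by
    have : (0 : ℤ) ≤ n ∧ (n : ℤ) ≤ d.R := by omega
    rw [fz, if_pos this, ZMod.val_cast_of_lt hb, Int.toNat_natCast]
  have h2 : d.fz ((b : ZMod d.L) + a) ((n : ℤ) + r) =
      (d.f.getD ((b + a) % d.L) []).getD (r + n) 0 := by
    unfold fz
    rw [hv]
    by_cases h : r + n ≤ d.R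
    · rw [if_pos (by omega), show ((n : ℤ) + r).toNat = r + n by omega]
    · rw [if_neg (by omega), List.getD_eq_default]
      rw [hl _ (Nat.mod_lt _ (NeZero.pos d.L))]
      omega
  rw [h1, h2]

/-- Everything `check` gives, in usable form. -/
structure Good (d : Data) : Prop where
  L_pos : 0 < d.L
  S_nonneg : 0 ≤ d.S
  near : d.nearOK = true
  far : d.farOK = true
  len : d.f.length = d.L
  row : ∀ row ∈ d.f, row.length = d.R + 1
  g_ends : d.g 0 = d.g d.L
  g_mean : ∑ i ∈ range d.L, (d.g i + d.g (i + 1)) = 0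
  auto : ∀ a < d.L, ∀ x < 2 * d.R + 1, (d.A.getD a []).getD x 0 = d.auto a ((x : ℤ) - d.R)

lemma good_of_check (h : d.check = true) : Good d := by
  simp only [check, shapeOK, Bool.and_eq_true, decide_eq_true_eq, List.all_eq_true] at h
  obtain ⟨⟨⟨⟨⟨⟨⟨⟨h1, h2⟩, h3⟩, h4⟩, h5⟩, h6⟩, ha⟩, hn⟩, hf⟩ := h
  refine ⟨h1, h2, hn, hf, h3, h4, h5, h6, fun a ha' x hx => ?_⟩
  simp only [autoOK, List.all_eq_true, List.mem_range, Bool.and_eq_true, decide_eq_true_eq] at ha
  exact (ha a ha').2 x hx

lemma phiZ_eq_corr [NeZero d.L] (h : Good d) (i j : ℤ) :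
    d.phiZ i j = d.corr (i : ZMod d.L) (j - i) := by
  have h0 : (0 : ℤ) < d.L := by exact_mod_cast h.L_pos
  set a := (i % (d.L : ℤ)).toNat with ha
  have haL : a < d.L := res_lt h.L_pos i
  have hcast : (a : ZMod d.L) = (i : ZMod d.L) := by
    rw [show (a : ZMod d.L) = ((a : ℤ) : ZMod d.L) by simp, ha,
      Int.toNat_of_nonneg (Int.emod_nonneg i h0.ne'), ZMod.intCast_mod]
  set r := j - i
  by_cases hr : -(d.R : ℤ) ≤ r ∧ r ≤ d.R
  · have hx : (r + d.R).toNat < 2 * d.R + 1 := by omega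
    rw [phiZ, phi, if_pos hr, ← ha, h.auto a haL _ hx,
      show (((r + (d.R : ℤ)).toNat : ℕ) : ℤ) - d.R = r by omega, ← hcast, auto]
    by_cases h' : 0 ≤ r
    · rw [if_pos h', autoPos_eq h.len h.row, show ((r.toNat : ℕ) : ℤ) = r by omega]
    · rw [if_neg h', autoPos_eq h.len h.row,
        show (((d.L - a) % d.L : ℕ) : ZMod d.L) = -(a : ZMod d.L) by
          rw [ZMod.natCast_mod, Nat.cast_sub haL.le, ZMod.natCast_self, zero_sub],
        show (((-r).toNat : ℕ) : ℤ) = -r by omega, corr_symm]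
  · rw [phiZ, phi, if_neg hr, corr]
    symm
    refine Finset.sum_eq_zero fun b _ => Finset.sum_eq_zero fun n hn => ?_
    simp only [Finset.mem_Icc] at hn
    have : ¬(0 ≤ n + r ∧ n + r ≤ d.R) := by omega
    simp [fz, this]

/-- The autocorrelation table is positive definite. -/
theorem phiZ_sum_nonneg (h : Good d) {ι : Type*} [Fintype ι] (P Q : ι → ℤ) :
    0 ≤ ∑ k, ∑ l, d.phiZ (P k - P l) (Q k - Q l) := by
  haveI : NeZero d.L := ⟨h.L_pos.ne'⟩
  set M : ℤ := d.R + ∑ k, |Q k - P k| with hM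
  have hb : ∀ l, |Q l - P l| ≤ ∑ k, |Q k - P k| := fun l =>
    Finset.single_le_sum (f := fun k => |Q k - P k|) (fun _ _ => abs_nonneg _) (Finset.mem_univ l)
  have e : ∀ k l, d.phiZ (P k - P l) (Q k - Q l) = ∑ b : ZMod d.L, ∑ n ∈ Icc (-M) M,
      d.fz (b + (P l : ZMod d.L)) (n + (Q l - P l))
        * d.fz (b + (P k : ZMod d.L)) (n + (Q k - P k)) := by
    intro k l
    have := abs_le.mp (le_refl |Q l - P l|)
    have := hb l
    rw [phiZ_eq_corr h, corr_shift _ (P l : ZMod d.L) _ (Q l - P l) M (by omega) (by omega)]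
    refine Finset.sum_congr rfl fun b _ => Finset.sum_congr rfl fun n _ => ?_
    push_cast
    congr 2 <;> ring
  simp only [e]
  rw [Finset.sum_congr rfl fun k _ => Finset.sum_comm, Finset.sum_comm]
  refine Finset.sum_nonneg fun b _ => ?_
  rw [Finset.sum_congr rfl fun k _ => Finset.sum_comm, Finset.sum_comm]
  refine Finset.sum_nonneg fun n _ => ?_
  rw [Finset.sum_comm, ← Finset.sum_mul_sum]
  exact mul_self_nonneg _

lemma sum_shift {q : ℕ} (F : ℤ → ℤ) (hF : ∀ t, F (t + q) = F t) (c : ℤ) :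
    ∑ t ∈ range q, F (c + t) = ∑ t ∈ range q, F t := by
  have step : ∀ c : ℤ, ∑ t ∈ range q, F (c + 1 + t) = ∑ t ∈ range q, F (c + t) := by
    intro c
    have h1 := Finset.sum_range_succ' (fun t : ℕ => F (c + t)) q
    have h2 := Finset.sum_range_succ (fun t : ℕ => F (c + t)) q
    simp only [Nat.cast_zero, add_zero, Nat.cast_add, Nat.cast_one, hF c] at h1 h2
    rw [h2] at h1
    have : ∑ t ∈ range q, F (c + 1 + t) = ∑ t ∈ range q, F (c + ((t : ℤ) + 1)) :=
      Finset.sum_congr rfl fun t _ => by ring_nf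
    linarith
  induction c using Int.induction_on with
  | zero => simp
  | succ k ih => rw [step, ih]
  | pred k ih =>
    have := step (-(k : ℤ) - 1)
    rw [sub_add_cancel] at this
    rw [← this, ih]

/-- Averaging the rounding offset gives linear interpolation. -/
lemma sum_offset {q : ℕ} (hq : 0 < q) (H : ℤ → ℤ) (P W : ℤ) :
    ∑ t ∈ range q, H ((P + t) / q - (W + t) / q) =
      ((q : ℤ) - (P - W) % q) * H ((P - W) / q) + (P - W) % q * H ((P - W) / q + 1) := by
  have hq0 : (0 : ℤ) < q := by exact_mod_cast hq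
  set D := P - W with hD
  have key := sum_shift (q := q) (fun t => H ((t + D) / q - t / q)) (fun t => by
    have a1 : (t + q + D) / (q : ℤ) = (t + D) / q + 1 := by
      rw [show t + (q : ℤ) + D = t + D + 1 * q by ring, Int.add_mul_ediv_right _ _ hq0.ne']
    have a2 : (t + (q : ℤ)) / (q : ℤ) = t / q + 1 := by
      rw [show t + (q : ℤ) = t + 1 * q by ring, Int.add_mul_ediv_right _ _ hq0.ne']
    simp only [a1, a2, add_sub_add_right_eq_sub]) W
  have e : ∀ t : ℕ, P + (t : ℤ) = W + t + D := fun t => by rw [hD]; ring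
  simp only [e]
  rw [key]
  have r0 := Int.emod_nonneg D hq0.ne'
  have r1 := Int.emod_lt_of_pos D hq0
  set r := (D % (q : ℤ)).toNat with hr
  have hrq : ((r : ℕ) : ℤ) = D % q := Int.toNat_of_nonneg r0
  have hval : ∀ t ∈ range q, H (((t : ℕ) + D) / (q : ℤ) - ((t : ℕ) : ℤ) / q) =
      if t < q - r then H (D / q) else H (D / q + 1) := by
    intro t ht
    have ht : t < q := Finset.mem_range.mp ht
    have hsplit : (t : ℤ) + D = ((t : ℤ) + D % q) + D / q * q := by
      have := Int.emod_add_mul_ediv D q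
      linarith
    rw [hsplit, Int.add_mul_ediv_right _ _ hq0.ne', Int.ediv_eq_zero_of_lt (a := (t : ℤ))
      (by omega) (by omega), sub_zero]
    split_ifs with h
    · rw [Int.ediv_eq_zero_of_lt (by omega) (by omega), zero_add]
    · rw [show (t : ℤ) + D % q = ((t : ℤ) + D % q - q) + 1 * q by ring,
        Int.add_mul_ediv_right _ _ hq0.ne', Int.ediv_eq_zero_of_lt (by omega) (by omega)]
      ring_nf
  rw [Finset.sum_congr rfl hval]
  rw [Finset.sum_ite, Finset.sum_const, Finset.sum_const,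
    show (range q).filter (fun t => t < q - r) = range (q - r) by
      ext t; simp only [mem_filter, mem_range]; omega,
    show (range q).filter (fun t => ¬ t < q - r) = Finset.Ico (q - r) q by
      ext t; simp only [mem_filter, mem_range, Finset.mem_Ico]; omega]
  simp only [Finset.card_range, Nat.card_Ico, nsmul_eq_mul]
  rw [show ((q - r : ℕ) : ℤ) = (q : ℤ) - D % q by omega,
    show ((q - (q - r) : ℕ) : ℤ) = D % q by omega]

/-- The interpolated table is positive definite. -/
theorem phiq_sum_nonneg (h : Good d) {q : ℕ} (hq : 0 < q) {ι : Type*} [Fintype ι] (P Q : ι → ℤ) :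
    0 ≤ ∑ k, ∑ l, d.phiq q (P k - P l) (Q k - Q l) := by
  have e : ∀ k l, d.phiq q (P k - P l) (Q k - Q l) = ∑ t ∈ range q, ∑ u ∈ range q,
      d.phiZ ((P k + t) / q - (P l + t) / q) ((Q k + u) / q - (Q l + u) / q) := by
    intro k l
    rw [sum_offset hq (fun i => ∑ u ∈ range q, d.phiZ i ((Q k + u) / q - (Q l + u) / q))
      (P k) (P l)]
    rw [sum_offset hq (fun j => d.phiZ ((P k - P l) / q) j) (Q k) (Q l),
      sum_offset hq (fun j => d.phiZ ((P k - P l) / q + 1) j) (Q k) (Q l)]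
    unfold phiq
    ring
  simp only [e]
  rw [Finset.sum_congr rfl fun k _ => Finset.sum_comm, Finset.sum_comm]
  refine Finset.sum_nonneg fun t _ => ?_
  rw [Finset.sum_congr rfl fun k _ => Finset.sum_comm, Finset.sum_comm]
  exact Finset.sum_nonneg fun u _ => phiZ_sum_nonneg h _ _

lemma interp_periodic (hL : 0 < d.L) {q : ℕ} (hq : 0 < q) (F : ℕ → ℤ) (P k : ℤ) :
    d.interp q F (P + k * ((d.L * q : ℕ) : ℤ)) = d.interp q F P := by
  have hq0 : (q : ℤ) ≠ 0 := by exact_mod_cast hq.ne'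
  have e1 : (P + k * ((d.L * q : ℕ) : ℤ)) % q = P % q := by
    rw [show P + k * ((d.L * q : ℕ) : ℤ) = P + k * d.L * q by push_cast; ring,
      Int.add_mul_emod_self_right]
  have e2 : (P + k * ((d.L * q : ℕ) : ℤ)) / q = P / q + k * d.L := by
    rw [show P + k * ((d.L * q : ℕ) : ℤ) = P + k * d.L * q by push_cast; ring,
      Int.add_mul_ediv_right _ _ hq0]
  rw [interp, interp, e1, e2, res_add_mul]

lemma gq_period_sum (h : Good d) {q : ℕ} (hq : 0 < q) :
    ∑ x ∈ range (d.L * q), d.gq q x = 0 := by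
  have hq0 : (0 : ℤ) < q := by exact_mod_cast hq
  have hstep : ∀ a < d.L, ∑ r ∈ range q, d.gq q ((a * q + r : ℕ) : ℤ) =
      (q : ℤ) * q * d.g a + (∑ r ∈ range q, (r : ℤ)) * (d.g (a + 1) - d.g a) := by
    intro a ha
    have : ∀ r ∈ range q, d.gq q ((a * q + r : ℕ) : ℤ) =
        (q : ℤ) * d.g a + (r : ℤ) * (d.g (a + 1) - d.g a) := by
      intro r hr
      have hr : r < q := Finset.mem_range.mp hr
      have e1 : ((a * q + r : ℕ) : ℤ) % q = r := by
        push_cast
        rw [show (a : ℤ) * q + r = r + a * q by ring, Int.add_mul_emod_self_right,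
          Int.emod_eq_of_lt (by omega) (by omega)]
      have e2 : ((a * q + r : ℕ) : ℤ) / q = a := by
        push_cast
        rw [show (a : ℤ) * q + r = r + a * q by ring, Int.add_mul_ediv_right _ _ hq0.ne',
          Int.ediv_eq_zero_of_lt (by omega) (by omega), zero_add]
      have e3 : d.res (a : ℤ) = a := by
        unfold res
        rw [Int.emod_eq_of_lt (by omega) (by omega)]
        simp
      rw [gq, interp, e1, e2, e3]
      ring
    rw [Finset.sum_congr rfl this, Finset.sum_add_distrib, Finset.sum_const, Finset.card_range,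
      Finset.sum_mul, nsmul_eq_mul, mul_assoc]
  have hsplit : ∀ N : ℕ, ∑ x ∈ range (N * q), d.gq q x =
      ∑ a ∈ range N, ∑ r ∈ range q, d.gq q ((a * q + r : ℕ) : ℤ) := by
    intro N
    induction N with
    | zero => simp
    | succ N ih => rw [Nat.succ_mul, Finset.sum_range_add, ih, Finset.sum_range_succ]
  rw [hsplit, Finset.sum_congr rfl fun a ha => hstep a (Finset.mem_range.mp ha),
    Finset.sum_add_distrib, ← Finset.mul_sum, ← Finset.mul_sum, Finset.sum_range_sub]
  have htel := Finset.sum_range_sub d.g d.L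
  have hm := h.g_mean
  rw [Finset.sum_add_distrib] at hm
  rw [Finset.sum_sub_distrib] at htel
  have : ∑ a ∈ range d.L, d.g a = 0 := by
    have := h.g_ends
    linarith
  rw [this, ← h.g_ends]
  ring

/-- Sum of absolute values. -/
def absSum (p : List ℤ) : ℤ := (p.map fun x => |x|).sum

lemma absSum_nonneg : ∀ p : List ℤ, 0 ≤ absSum p
  | [] => by simp [absSum]
  | x :: p => by
    have := absSum_nonneg p
    simp only [absSum, List.map_cons, List.sum_cons] at this ⊢
    linarith [abs_nonneg x]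

lemma getD_abs_le : ∀ (p : List ℤ) (u : ℕ), |p.getD u 0| ≤ absSum p
  | [], u => by simp [absSum]
  | x :: p, 0 => by
    have := absSum_nonneg p
    simp only [List.getD_cons_zero, absSum, List.map_cons, List.sum_cons] at this ⊢
    linarith
  | x :: p, u + 1 => by
    have := getD_abs_le p u
    simp only [List.getD_cons_succ, absSum, List.map_cons, List.sum_cons] at this ⊢
    linarith [abs_nonneg x]

/-- The bound on the diagonal terms. -/
def slack (d : Data) : ℤ :=
  2 * |d.g 0| + |d.phiZ 0 0| + (d.psi.map fun p => absSum p * absSum p).sum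

lemma slack_nonneg : 0 ≤ slack d := by
  have : 0 ≤ (d.psi.map fun p => absSum p * absSum p).sum :=
    List.sum_nonneg (by simp only [List.mem_map]; rintro x ⟨p, -, rfl⟩; exact mul_self_nonneg _)
  unfold slack
  positivity

lemma interp_abs_le {q : ℕ} (hq : 0 < q) (p : List ℤ) (P : ℤ) :
    |d.interp q (p.getD · 0) P| ≤ q * absSum p := by
  have hq0 : (0 : ℤ) < q := by exact_mod_cast hq
  have r0 := Int.emod_nonneg P hq0.ne'
  have r1 := Int.emod_lt_of_pos P hq0
  have a := getD_abs_le p (d.res (P / q))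
  have b := getD_abs_le p (d.res (P / q) + 1)
  refine (abs_add_le _ _).trans ?_
  rw [abs_mul, abs_mul, abs_of_nonneg (by omega : 0 ≤ (q : ℤ) - P % q), abs_of_nonneg r0]
  calc ((q : ℤ) - P % q) * |p.getD (d.res (P / q)) 0| + P % q * |p.getD (d.res (P / q) + 1) 0|
      ≤ ((q : ℤ) - P % q) * absSum p + P % q * absSum p := by gcongr
    _ = q * absSum p := by ring

/-- Ordered pairs of distinct elements. -/
abbrev offDiag (ι : Type*) [Fintype ι] [DecidableEq ι] : Finset (ι × ι) :=
  (Finset.univ : Finset ι).offDiag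

lemma sum_offDiag {ι : Type*} [Fintype ι] [DecidableEq ι] (F : ι → ι → ℤ) :
    ∑ x ∈ offDiag ι, F x.1 x.2 = (∑ k, ∑ l, F k l) - ∑ k, F k k := by
  have h := Finset.sum_union (f := fun x : ι × ι => F x.1 x.2)
    (Finset.disjoint_diag_offDiag (Finset.univ : Finset ι))
  rw [Finset.diag_union_offDiag, Finset.sum_product] at h
  rw [h, Finset.sum_diag]
  ring

/-- **The certificate bound.**  `rk b` is the rotation at `b` (a rank for each of the `m` points),
`Q b b' k` any integer lift of `-rk b' k`. -/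
theorem cert_sum (h : Good d) {q n m : ℕ} (hq : 0 < q) (hm : m = d.L * q)
    (rk : Fin n → Fin m ≃ Fin m) (Q : Fin n → Fin n → Fin m → ℤ)
    (hQ : ∀ b b' k, (m : ℤ) ∣ Q b b' k + (rk b' k : ℕ)) :
    d.C * ((n : ℤ) * (n - 1)) * ((m : ℤ) * (m - 1))
        - slack d * ((n : ℤ) * n * m + (n : ℤ) * m * m) ≤
      d.S * ∑ x ∈ offDiag (Fin n), ∑ y ∈ offDiag (Fin m),
        crossN m ((rk x.1 y.1 : ℕ) - (rk x.1 y.2 : ℕ)) (Q x.1 x.2 y.1 - Q x.1 x.2 y.2) := by
  have hq0 : (0 : ℤ) < q := by exact_mod_cast hq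
  have hmq : ((d.L * q : ℕ) : ℤ) = m := by rw [hm]
  let dy : Fin n → Fin m × Fin m → ℤ := fun b y => (rk b y.1 : ℕ) - (rk b y.2 : ℕ)
  let dq : Fin n × Fin n → Fin m × Fin m → ℤ := fun x y => Q x.1 x.2 y.1 - Q x.1 x.2 y.2
  -- periodicity: `-ΔQ` may be replaced by `Δrk b'`
  have hper : ∀ (x : Fin n × Fin n) (y : Fin m × Fin m) (F : ℕ → ℤ),
      d.interp q F (-dq x y) = d.interp q F (dy x.2 y) := by
    intro x y F
    obtain ⟨u, hu⟩ := hQ x.1 x.2 y.1
    obtain ⟨v, hv⟩ := hQ x.1 x.2 y.2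
    rw [← interp_periodic h.L_pos hq F (dy x.2 y) (v - u), hmq]
    congr 1
    simp only [dy, dq]
    linear_combination hv - hu
  have hnd : ∀ (x : Fin n × Fin n), ∀ y ∈ offDiag (Fin m),
      ¬ ((d.L * q : ℕ) : ℤ) ∣ dq x y := by
    intro x y hy hdvd
    rw [hmq] at hdvd
    have h1 : (m : ℤ) ∣ dy x.2 y := by
      have e : dy x.2 y = Q x.1 x.2 y.1 + (rk x.2 y.1 : ℕ) - (Q x.1 x.2 y.2 + (rk x.2 y.2 : ℕ))
          - dq x y := by
        show ((rk x.2 y.1 : ℕ) : ℤ) - (rk x.2 y.2 : ℕ) = _ - _ - (Q x.1 x.2 y.1 - Q x.1 x.2 y.2)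
        ring
      rw [e]
      exact dvd_sub (dvd_sub (hQ x.1 x.2 y.1) (hQ x.1 x.2 y.2)) hdvd
    have hne : (rk x.2 y.1 : ℕ) ≠ (rk x.2 y.2 : ℕ) := fun he =>
      (Finset.mem_offDiag.mp hy).2.2 ((rk x.2).injective (Fin.ext he))
    have := Int.eq_zero_of_abs_lt_dvd h1 (by
      have := (rk x.2 y.1).isLt
      have := (rk x.2 y.2).isLt
      rw [abs_lt]
      constructor <;> simp only [dy] <;> omega)
    simp only [dy] at this
    omega
  -- the pointwise inequality, summed
  have main : ∑ x ∈ offDiag (Fin n), ∑ y ∈ offDiag (Fin m),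
      ((q : ℤ) * q * d.C + (q : ℤ) * d.gq q (dy x.1 y) + (q : ℤ) * d.gq q (dy x.2 y)
        + d.kq q (dy x.1 y) (dy x.2 y) + d.phiq q (dy x.1 y) (dq x y)) ≤
      ∑ x ∈ offDiag (Fin n), ∑ y ∈ offDiag (Fin m),
        (q : ℤ) * q * d.S * crossN m (dy x.1 y) (dq x y) := by
    refine Finset.sum_le_sum fun x _ => Finset.sum_le_sum fun y hy => ?_
    have hp := pointwise h.L_pos h.S_nonneg h.near h.far hq (dy x.1 y) (dq x y) (hnd x y hy)
    have hk : d.kq q (dy x.1 y) (-dq x y) = d.kq q (dy x.1 y) (dy x.2 y) := by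
      simp only [kq, hper]
    rw [hmq, hk, show d.gq q (-dq x y) = d.gq q (dy x.2 y) from hper x y _] at hp
    exact hp
  simp only [Finset.sum_add_distrib] at main
  -- constants
  have hC : ∑ _x ∈ offDiag (Fin n), ∑ _y ∈ offDiag (Fin m), (q : ℤ) * q * d.C =
      (q : ℤ) * q * (d.C * ((n : ℤ) * (n - 1)) * ((m : ℤ) * (m - 1))) := by
    have hc : ∀ N : ℕ, ((offDiag (Fin N)).card : ℤ) = (N : ℤ) * (N - 1) := fun N => by
      rw [Finset.offDiag_card, Finset.card_univ, Fintype.card_fin, Nat.cast_sub (Nat.le_mul_self N)]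
      push_cast; ring
    simp only [Finset.sum_const, nsmul_eq_mul, hc]
    ring
  -- the linear terms
  have hg : ∀ b, ∑ y ∈ offDiag (Fin m), (q : ℤ) * d.gq q (dy b y) =
      -((q : ℤ) * q * m * d.g 0) := by
    intro b
    rw [← Finset.mul_sum, sum_offDiag (fun k l => d.gq q (dy b (k, l)))]
    have hrow : ∀ k, ∑ l, d.gq q (dy b (k, l)) = 0 := by
      intro k
      calc ∑ l, d.gq q (dy b (k, l)) = ∑ z : Fin m, d.gq q (((rk b k : ℕ) : ℤ) - (z : ℕ)) :=
            Fintype.sum_equiv (rk b) _ _ fun l => rfl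
        _ = ∑ x ∈ range m, d.gq q (((rk b k : ℕ) : ℤ) - x) :=
            (Fin.sum_univ_eq_sum_range (fun x : ℕ => d.gq q (((rk b k : ℕ) : ℤ) - x)) m)
        _ = ∑ x ∈ range m, d.gq q (((rk b k : ℕ) : ℤ) - m + 1 + x) := by
            rw [← Finset.sum_range_reflect]
            refine Finset.sum_congr rfl fun x hx => ?_
            have hx := Finset.mem_range.mp hx
            rw [show ((m - 1 - x : ℕ) : ℤ) = (m : ℤ) - 1 - x by omega]
            ring_nf
        _ = ∑ x ∈ range m, d.gq q x :=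
            sum_shift (q := m) (d.gq q) (fun t => by
              have := interp_periodic h.L_pos hq d.g t 1
              rw [hmq, one_mul] at this
              exact this) _
        _ = 0 := by rw [hm]; exact gq_period_sum h hq
    have hdiag : ∀ k, d.gq q (dy b (k, k)) = (q : ℤ) * d.g 0 := by
      intro k
      simp [dy, gq, interp, res]
    simp only [hrow, hdiag, Finset.sum_const, Finset.card_univ, Fintype.card_fin, nsmul_eq_mul]
    ring
  -- the autocorrelation
  have hphi : ∀ x : Fin n × Fin n,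
      -((q : ℤ) * q * m * |d.phiZ 0 0|) ≤ ∑ y ∈ offDiag (Fin m), d.phiq q (dy x.1 y) (dq x y) := by
    intro x
    rw [sum_offDiag (fun k l => d.phiq q (dy x.1 (k, l)) (dq x (k, l)))]
    have h1 := phiq_sum_nonneg h hq (fun k => ((rk x.1 k : ℕ) : ℤ)) (fun k => Q x.1 x.2 k)
    have hdiag : ∀ k, d.phiq q (dy x.1 (k, k)) (dq x (k, k)) = (q : ℤ) * q * d.phiZ 0 0 := by
      intro k
      simp [dy, dq, phiq]
    simp only [hdiag, Finset.sum_const, Finset.card_univ, Fintype.card_fin, nsmul_eq_mul]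
    have : (m : ℤ) * ((q : ℤ) * q * d.phiZ 0 0) ≤ (q : ℤ) * q * m * |d.phiZ 0 0| := by
      have := le_abs_self (d.phiZ 0 0)
      calc (m : ℤ) * ((q : ℤ) * q * d.phiZ 0 0) = (q : ℤ) * q * m * d.phiZ 0 0 := by ring
        _ ≤ _ := mul_le_mul_of_nonneg_left this (by positivity)
    simp only [dy, dq] at h1 ⊢
    linarith
  -- the kernel
  have hker : -((q : ℤ) * q * ((n : ℤ) * m * m) * (d.psi.map fun p => absSum p * absSum p).sum) ≤
      ∑ x ∈ offDiag (Fin n), ∑ y ∈ offDiag (Fin m), d.kq q (dy x.1 y) (dy x.2 y) := by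
    unfold kq
    induction d.psi with
    | nil => simp
    | cons p l ih =>
      simp only [List.map_cons, List.sum_cons, Finset.sum_add_distrib]
      have hp : -((q : ℤ) * q * ((n : ℤ) * m * m) * (absSum p * absSum p)) ≤
          ∑ x ∈ offDiag (Fin n), ∑ y ∈ offDiag (Fin m),
            d.interp q (p.getD · 0) (dy x.1 y) * d.interp q (p.getD · 0) (dy x.2 y) := by
        rw [Finset.sum_comm]
        set w := fun (b : Fin n) (y : Fin m × Fin m) => d.interp q (p.getD · 0) (dy b y) with hw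
        have hy : ∀ y ∈ offDiag (Fin m), -((n : ℤ) * ((q : ℤ) * absSum p * ((q : ℤ) * absSum p))) ≤
            ∑ x ∈ offDiag (Fin n), w x.1 y * w x.2 y := by
          intro y _
          rw [sum_offDiag (fun b b' => w b y * w b' y), ← Finset.sum_mul_sum]
          have h1 : ∑ b, w b y * w b y ≤
              (n : ℤ) * ((q : ℤ) * absSum p * ((q : ℤ) * absSum p)) := by
            refine (Finset.sum_le_sum fun b _ => ?_).trans (le_of_eq ?_) (b := ∑ _b : Fin n,
              (q : ℤ) * absSum p * ((q : ℤ) * absSum p))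
            · rw [← abs_mul_abs_self]
              have := interp_abs_le (d := d) hq p (dy b y)
              exact mul_le_mul this this (abs_nonneg _) ((abs_nonneg _).trans this)
            · simp [mul_assoc]
          linarith [mul_self_nonneg (∑ b, w b y)]
        refine le_trans ?_ (Finset.sum_le_sum hy)
        rw [Finset.sum_const, nsmul_eq_mul]
        have hcard : ((offDiag (Fin m)).card : ℤ) ≤ (m : ℤ) * m := by
          rw [Finset.offDiag_card, Finset.card_univ, Fintype.card_fin]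
          exact_mod_cast Nat.sub_le _ _
        have hnn : (0 : ℤ) ≤ (n : ℤ) * ((q : ℤ) * absSum p * ((q : ℤ) * absSum p)) :=
          mul_nonneg (Int.natCast_nonneg n) (mul_self_nonneg _)
        have := mul_le_mul_of_nonneg_right hcard hnn
        linarith
      linarith
  have hG1 : ∑ x ∈ offDiag (Fin n), ∑ y ∈ offDiag (Fin m), (q : ℤ) * d.gq q (dy x.1 y) =
      -((offDiag (Fin n)).card * ((q : ℤ) * q * m * d.g 0)) := by
    simp [hg]
  have hG2 : ∑ x ∈ offDiag (Fin n), ∑ y ∈ offDiag (Fin m), (q : ℤ) * d.gq q (dy x.2 y) =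
      -((offDiag (Fin n)).card * ((q : ℤ) * q * m * d.g 0)) := by
    simp [hg]
  have hP : -((offDiag (Fin n)).card * ((q : ℤ) * q * m * |d.phiZ 0 0|)) ≤
      ∑ x ∈ offDiag (Fin n), ∑ y ∈ offDiag (Fin m), d.phiq q (dy x.1 y) (dq x y) := by
    have := Finset.sum_le_sum (s := offDiag (Fin n)) fun x _ => hphi x
    simp only [Finset.sum_const, nsmul_eq_mul, mul_neg] at this
    exact this
  have hcardn : ((offDiag (Fin n)).card : ℤ) ≤ (n : ℤ) * n := by
    rw [Finset.offDiag_card, Finset.card_univ, Fintype.card_fin]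
    exact_mod_cast Nat.sub_le _ _
  have hgabs : ((offDiag (Fin n)).card : ℤ) * ((q : ℤ) * q * m * (2 * |d.g 0| + |d.phiZ 0 0|)) ≤
      (n : ℤ) * n * ((q : ℤ) * q * m * (2 * |d.g 0| + |d.phiZ 0 0|)) :=
    mul_le_mul_of_nonneg_right hcardn (by positivity)
  have hg0 : ((offDiag (Fin n)).card : ℤ) * ((q : ℤ) * q * m * d.g 0) ≤
      ((offDiag (Fin n)).card : ℤ) * ((q : ℤ) * q * m * |d.g 0|) :=
    mul_le_mul_of_nonneg_left (mul_le_mul_of_nonneg_left (le_abs_self _) (by positivity))
      (by positivity)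
  have hrhs : ∑ x ∈ offDiag (Fin n), ∑ y ∈ offDiag (Fin m),
      (q : ℤ) * q * d.S * crossN m (dy x.1 y) (dq x y) = (q : ℤ) * q * (d.S *
        ∑ x ∈ offDiag (Fin n), ∑ y ∈ offDiag (Fin m),
          crossN m ((rk x.1 y.1 : ℕ) - (rk x.1 y.2 : ℕ)) (Q x.1 x.2 y.1 - Q x.1 x.2 y.2)) := by
    simp only [Finset.mul_sum, dy, dq]
    exact Finset.sum_congr rfl fun x _ => Finset.sum_congr rfl fun y _ => by ring
  rw [hC, hG1, hG2, hrhs] at main
  refine le_of_mul_le_mul_left ?_ (mul_pos hq0 hq0)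
  unfold slack
  have hPsi : 0 ≤ (d.psi.map fun p => absSum p * absSum p).sum :=
    List.sum_nonneg (by simp only [List.mem_map]; rintro x ⟨p, -, rfl⟩; exact mul_self_nonneg _)
  have t1 : 0 ≤ (q : ℤ) * q * ((n : ℤ) * n * m) *
      (d.psi.map fun p => absSum p * absSum p).sum := mul_nonneg (by positivity) hPsi
  have t2 : 0 ≤ (q : ℤ) * q * ((n : ℤ) * m * m) * (2 * |d.g 0| + |d.phiZ 0 0|) :=
    mul_nonneg (by positivity) (by positivity)
  linarith

end Data

end Vale.Agent.P040.Cert
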